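import Vale.Agent.P371.Gamma.Defs

/-!
P371, trial functions: completion of the square along a flip.
-/

open Matrix MeasureTheory Set Filter
open scoped Matrix.Norms.L2Operator ComplexOrder Topology InnerProductSpace

namespace Vale.Agent.P371.Gamma.Trial

variable {m N : ℕ}

/-- The conjugated values of a family, one row for each member. -/
def mix (u : Fin N → ℝ → EuclideanSpace ℂ (Fin m)) (x : ℝ) : Matrix (Fin N) (Fin m) ℂ :=
  Matrix.of fun i k => star (u i x k)

theorem mix_mul_mix (v w : Fin N → ℝ → EuclideanSpace ℂ (Fin m)) (x : ℝ) (j i : Fin N) :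
    (mix v x * (mix w x)ᴴ) j i = ⟪v j x, w i x⟫_ℂ := by
  simp only [mix, Matrix.mul_apply, Matrix.conjTranspose_apply, Matrix.of_apply, PiLp.inner_apply, RCLike.inner_apply, Complex.star_def]
  exact Finset.sum_congr rfl fun k _ => by rw [Complex.conj_conj, mul_comm]

/-- The real part of the trace. -/
noncomputable def reTrace (n : ℕ) : Mat n →L[ℝ] ℝ :=
  LinearMap.toContinuousLinearMap
    (Complex.reLm ∘ₗ (Matrix.traceLinearMap (Fin n) ℂ ℂ).restrictScalars ℝ)

theorem reTrace_apply {n : ℕ} (M : Mat n) : reTrace n M = M.trace.re := rfl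

/-- The real trace commutes with integrals. -/
theorem integral_re_trace {μ : Measure ℝ} (D : Mat N) (M : ℝ → Mat N)
    (hM : ∀ i j, Integrable (fun x => M x i j) μ) :
    Integrable (fun x => (D * M x).trace.re) μ ∧
      ∫ x, (D * M x).trace.re ∂μ = (D * Matrix.of fun i j => ∫ x, M x i j ∂μ).trace.re := by
  have e : (fun x => (D * M x).trace) = fun x => ∑ i, ∑ j, D i j * M x j i := funext fun x => by
    simp [Matrix.trace, Matrix.mul_apply]
  have hi : Integrable (fun x => (D * M x).trace) μ := by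
    rw [e]
    exact integrable_finsetSum _ fun i _ => integrable_finsetSum _ fun j _ => (hM j i).const_mul _
  refine ⟨hi.re, ?_⟩
  change ∫ x, RCLike.re ((D * M x).trace) ∂μ = _
  have e2 : ∫ x, ∑ i, ∑ j, D i j * M x j i ∂μ = ∑ i, ∑ j, D i j * ∫ x, M x j i ∂μ := by
    rw [integral_finsetSum (Finset.univ : Finset (Fin N))
      (f := fun i x => ∑ j, D i j * M x j i)
      (fun i _ => integrable_finsetSum _ fun j _ => (hM j i).const_mul _)]
    refine Finset.sum_congr rfl fun i _ => ?_
    rw [integral_finsetSum (Finset.univ : Finset (Fin N)) (f := fun j x => D i j * M x j i)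
      (fun j _ => (hM j i).const_mul _)]
    exact Finset.sum_congr rfl fun j _ => integral_const_mul _ _
  rw [integral_re hi, e, e2]
  simp [Matrix.trace, Matrix.mul_apply]

variable {u u' : Fin N → ℝ → EuclideanSpace ℂ (Fin m)}

theorem integrable_gr {v w : Fin N → ℝ → EuclideanSpace ℂ (Fin m)} (hv : ∀ i, MemLp (v i) 2)
    (hw : ∀ i, MemLp (w i) 2) (j i : Fin N) :
    Integrable fun x => (mix v x * (mix w x)ᴴ) j i := by
  simp only [mix_mul_mix]
  refine Integrable.mono' (((hv j).norm.integrable_sq).add ((hw i).norm.integrable_sq))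
    ((hv j).1.inner (hw i).1) (Eventually.of_forall fun x => ?_)
  refine (norm_inner_le_norm _ _).trans ?_
  simp only [Pi.add_apply]
  nlinarith [sq_nonneg (‖v j x‖ - ‖w i x‖), norm_nonneg (v j x), norm_nonneg (w i x)]

theorem hasDerivAt_gr (hu : IsFamily u u') (x : ℝ) :
    HasDerivAt (fun y => mix u y * (mix u y)ᴴ)
      (mix u' x * (mix u x)ᴴ + mix u x * (mix u' x)ᴴ) x := by
  have e : ∀ M : Mat N, M = ∑ j, ∑ i, M j i • Matrix.single j i (1 : ℂ) := fun M => by
    conv_lhs => rw [Matrix.matrix_eq_sum_single M]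
    simp [Matrix.smul_single]
  rw [funext fun y => e (mix u y * (mix u y)ᴴ), e (_ + _)]
  refine HasDerivAt.fun_sum fun j _ => HasDerivAt.fun_sum fun i _ => ?_
  simp only [Matrix.add_apply, mix_mul_mix]
  exact (((hu.1 j x).inner ℂ (hu.1 i x)).congr_deriv (add_comm _ _)).smul_const _

theorem continuous_mix (hu : ∀ i, Continuous (u i)) : Continuous (mix u) :=
  continuous_matrix fun i k => continuous_star.comp ((PiLp.continuous_apply 2 _ k).comp (hu i))

theorem square_nonneg {S : Mat N} (hS : S.IsHermitian) (B B' : Matrix (Fin N) (Fin m) ℂ) :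
    (S * (B' * Bᴴ + B * B'ᴴ)).trace.re
      ≤ (B' * B'ᴴ).trace.re + (S * S * (B * Bᴴ)).trace.re := by
  have h := (Complex.le_def.1
    (Matrix.posSemidef_self_mul_conjTranspose (B' - S * B)).trace_nonneg).1
  have e : ((B' - S * B) * (B' - S * B)ᴴ).trace
      = (B' * B'ᴴ).trace + (S * S * (B * Bᴴ)).trace - (S * (B' * Bᴴ + B * B'ᴴ)).trace := by
    rw [Matrix.conjTranspose_sub, Matrix.conjTranspose_mul, hS.eq, Matrix.sub_mul, Matrix.mul_sub,
      Matrix.mul_sub, Matrix.mul_add, Matrix.trace_sub, Matrix.trace_sub, Matrix.trace_sub,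
      Matrix.trace_add]
    have h1 : (B' * (Bᴴ * S)).trace = (S * (B' * Bᴴ)).trace := by
      rw [← Matrix.mul_assoc, Matrix.trace_mul_comm]
    have h2 : (S * B * (Bᴴ * S)).trace = (S * S * (B * Bᴴ)).trace := by
      rw [Matrix.trace_mul_comm, Matrix.mul_assoc, Matrix.trace_mul_comm]
      simp only [Matrix.mul_assoc]
    rw [h1, h2, Matrix.mul_assoc S B]
    ring
  rw [e, Complex.sub_re, Complex.add_re, Complex.zero_re] at h
  linarith

/-- **Completion of the square.** -/
theorem completion (hu : IsFamily u u') {a b : ℝ} (hab : a ≤ b) {K : Mat N} {V G : ℝ → Mat N}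
    (hf : IsFlip a b K V G) (hV : ContinuousOn V (Icc a b)) (C : Mat N) :
    ∫ x in a..b, (V x * (C * mix u x * (C * mix u x)ᴴ)).trace.re ≤
      (Cᴴ * C * Matrix.of fun j i => ∫ x, ⟪u' j x, u' i x⟫_ℂ).trace.re
        + (K * K * (C * Cᴴ)).trace.re := by
  obtain ⟨hd, hc', h2, h2', horth⟩ := hu
  have hu : IsFamily u u' := ⟨hd, hc', h2, h2', horth⟩
  have hcu : ∀ i, Continuous (u i) := fun i =>
    continuous_iff_continuousAt.2 fun x => (hd i x).continuousAt
  set B : ℝ → Matrix (Fin N) (Fin m) ℂ := fun x => C * mix u x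
  set B' : ℝ → Matrix (Fin N) (Fin m) ℂ := fun x => C * mix u' x
  set P : ℝ → Mat N := fun x => B x * (B x)ᴴ
  set P' : ℝ → Mat N := fun x => B' x * (B x)ᴴ + B x * (B' x)ᴴ
  set F : ℝ → ℝ := fun x => (B' x * (B' x)ᴴ).trace.re + (K * K * P x).trace.re with hF
  have hP : ∀ x, HasDerivAt P (P' x) x := fun x => by
    have h := ((hasDerivAt_gr hu x).const_mul C).mul_const Cᴴ
    have e1 : P = fun y => C * (mix u y * (mix u y)ᴴ) * Cᴴ := funext fun y => by
      simp only [P, B, Matrix.conjTranspose_mul, Matrix.mul_assoc]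
    rw [e1]
    refine h.congr_deriv ?_
    simp only [P', B, B', Matrix.conjTranspose_mul, Matrix.mul_add, Matrix.add_mul, Matrix.mul_assoc]
  have hentry : ∀ (D : Mat N) (v w : Fin N → ℝ → EuclideanSpace ℂ (Fin m)) (x : ℝ),
      (D * (C * mix v x * (C * mix w x)ᴴ)).trace
        = (Cᴴ * D * C * (mix v x * (mix w x)ᴴ)).trace := fun D v w x => by
    rw [Matrix.conjTranspose_mul, show D * (C * mix v x * ((mix w x)ᴴ * Cᴴ))
      = (D * C * (mix v x * (mix w x)ᴴ)) * Cᴴ by simp only [Matrix.mul_assoc], Matrix.trace_mul_comm]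
    simp only [Matrix.mul_assoc]
  have lin : ∀ (D : Mat N) (v w : Fin N → ℝ → EuclideanSpace ℂ (Fin m)),
      (∀ i, MemLp (v i) 2) → (∀ i, MemLp (w i) 2) →
      Integrable (fun x => (D * (C * mix v x * (C * mix w x)ᴴ)).trace.re) ∧
        ∫ x, (D * (C * mix v x * (C * mix w x)ᴴ)).trace.re
          = (Cᴴ * D * C * Matrix.of fun j i => ∫ x, ⟪v j x, w i x⟫_ℂ).trace.re := by
    intro D v w hv hw
    simp only [hentry]
    have h := integral_re_trace (Cᴴ * D * C) _ (integrable_gr hv hw)
    simp only [mix_mul_mix] at h ⊢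
    exact h
  have hF1 : Integrable fun x => (B' x * (B' x)ᴴ).trace.re := by
    simpa [B'] using (lin 1 u' u' h2' h2').1
  have hF2 : Integrable fun x => (K * K * P x).trace.re := (lin (K * K) u u h2 h2).1
  have hFint : Integrable F := hF1.add hF2
  have hFval : ∫ x, F x = (Cᴴ * C * Matrix.of fun j i => ∫ x, ⟪u' j x, u' i x⟫_ℂ).trace.re
      + (K * K * (C * Cᴴ)).trace.re := by
    rw [integral_add hF1 hF2]
    congr 1
    · simpa [B'] using (lin 1 u' u' h2' h2').2
    · rw [(lin (K * K) u u h2 h2).2, show (Matrix.of fun j i => ∫ x, ⟪u j x, u i x⟫_ℂ) = 1 by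
        ext j i; simp [horth, Matrix.one_apply], Matrix.mul_one, Matrix.trace_mul_comm]
      rw [← Matrix.mul_assoc, Matrix.trace_mul_comm]
  -- the boundary function for a constant Hermitian matrix
  have hside : ∀ S : Mat N, S.IsHermitian → S * S = K * K →
      (∀ x, HasDerivAt (fun y => (S * P y).trace.re) (S * P' x).trace.re x) ∧
      Integrable (fun x => (S * P x).trace.re) ∧ Integrable (fun x => (S * P' x).trace.re) ∧
      ∀ x, (S * P' x).trace.re ≤ F x := by
    intro S hS hSS
    refine ⟨fun x => (reTrace N).hasFDerivAt.comp_hasDerivAt x ((hP x).const_mul S),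
      (lin S u u h2 h2).1, ?_, fun x => ?_⟩
    · refine ((lin S u' u h2' h2).1.add (lin S u u' h2 h2').1).congr
        (Eventually.of_forall fun x => ?_)
      simp only [Pi.add_apply, P', B, B', Matrix.mul_add, Matrix.trace_add, Complex.add_re]
    · have h := square_nonneg hS (B x) (B' x)
      rw [hSS] at h
      exact h
  have hK : K.IsHermitian := hf.posDef.1
  obtain ⟨l1, l2, l3, l4⟩ := hside K hK rfl
  obtain ⟨r1, r2, r3, r4⟩ := hside (-K) hK.neg (neg_mul_neg K K)
  have hl : (K * P a).trace.re ≤ ∫ x in Iic a, F x := by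
    have ht := tendsto_zero_of_hasDerivAt_of_integrableOn_Iic (a := a) (fun x _ => l1 x)
      l3.integrableOn l2.integrableOn
    have h := integral_Iic_of_hasDerivAt_of_tendsto' (a := a) (fun x _ => l1 x) l3.integrableOn ht
    rw [sub_zero] at h
    rw [← h]
    exact setIntegral_mono l3.integrableOn hFint.integrableOn l4
  have hr : (K * P b).trace.re ≤ ∫ x in Ioi b, F x := by
    have ht := tendsto_zero_of_hasDerivAt_of_integrableOn_Ioi (a := b) (fun x _ => r1 x)
      r3.integrableOn r2.integrableOn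
    have h := integral_Ioi_of_hasDerivAt_of_tendsto' (a := b) (fun x _ => r1 x) r3.integrableOn ht
    rw [zero_sub, Matrix.neg_mul, Matrix.trace_neg, Complex.neg_re, neg_neg] at h
    rw [← h]
    exact setIntegral_mono r3.integrableOn hFint.integrableOn r4
  set g : ℝ → ℝ := fun x => (G x * P x).trace.re with hg
  set g' : ℝ → ℝ := fun x => ((K * K - G x * G x - V x) * P x + G x * P' x).trace.re with hg'
  have hGc : ContinuousOn G (Icc a b) := fun x hx => (hf.deriv x hx).continuousWithinAt
  have hBc : Continuous B := continuous_const.matrix_mul (continuous_mix hcu)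
  have hB'c : Continuous B' := continuous_const.matrix_mul (continuous_mix hc')
  have hPc : Continuous P := hBc.matrix_mul hBc.matrix_conjTranspose
  have hP'c : Continuous P' :=
    (hB'c.matrix_mul hBc.matrix_conjTranspose).add (hBc.matrix_mul hB'c.matrix_conjTranspose)
  have hgc : ContinuousOn g (Icc a b) :=
    (reTrace N).continuous.comp_continuousOn (hGc.mul hPc.continuousOn)
  have hg'c : ContinuousOn g' (Icc a b) :=
    (reTrace N).continuous.comp_continuousOn
      ((((continuousOn_const.sub (hGc.mul hGc)).sub hV).mul hPc.continuousOn).add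
        (hGc.mul hP'c.continuousOn))
  have hVc : ContinuousOn (fun x => (V x * P x).trace.re) (Icc a b) :=
    (reTrace N).continuous.comp_continuousOn (hV.mul hPc.continuousOn)
  have hgd : ∀ x ∈ Ioo a b, HasDerivAt g (g' x) x := fun x hx =>
    (reTrace N).hasFDerivAt.comp_hasDerivAt x
      (((hf.deriv x (Ioo_subset_Icc_self hx)).hasDerivAt (Icc_mem_nhds hx.1 hx.2)).mul (hP x))
  have hftc := intervalIntegral.integral_eq_sub_of_hasDerivAt_of_le hab hgc hgd
    (hg'c.intervalIntegrable_of_Icc hab)
  have hmid : ∫ x in a..b, (V x * P x).trace.re ≤ (∫ x in a..b, F x) - (g b - g a) := by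
    rw [← hftc, ← intervalIntegral.integral_sub hFint.intervalIntegrable
      (hg'c.intervalIntegrable_of_Icc hab)]
    refine intervalIntegral.integral_mono_on hab (hVc.intervalIntegrable_of_Icc hab)
      (hFint.intervalIntegrable.sub (hg'c.intervalIntegrable_of_Icc hab)) fun x hx => ?_
    have h := square_nonneg (hf.herm x hx) (B x) (B' x)
    simp only [hF, hg', P, P', Matrix.sub_mul, Matrix.trace_add, Matrix.trace_sub, Complex.add_re,
      Complex.sub_re] at *
    linarith
  have hga : g a = (K * P a).trace.re := by rw [hg]; simp only [hf.left]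
  have hgb : g b = -(K * P b).trace.re := by
    rw [hg]; simp only [hf.right, Matrix.neg_mul, Matrix.trace_neg, Complex.neg_re]
  have hsplit : ∫ x, F x = (∫ x in Iic a, F x) + (∫ x in a..b, F x) + ∫ x in Ioi b, F x := by
    rw [← intervalIntegral.integral_Iic_add_Ioi (b := b) hFint.integrableOn hFint.integrableOn,
      ← intervalIntegral.integral_Iic_sub_Iic hFint.integrableOn hFint.integrableOn]
    ring
  linarith

end Vale.Agent.P371.Gamma.Trial
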