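import Vale.Agent.P371.Gamma.Defs
import Vale.Agent.P371.TraceYoung

/-!
P371, trial functions: scalar inequalities, the diagonal of a functional calculus, and the trace of
powers of compressed potentials.
-/

open Matrix
open scoped Matrix.Norms.L2Operator ComplexOrder

namespace Vale.Agent.P371.Gamma.Trial

/-- Weighted arithmetic-geometric mean, in the form used below. -/
theorem young_rpow {x w p : ℝ} (hp : 1 ≤ p) (hx : 0 ≤ x) (hw : 0 ≤ w) :
    x ^ (p - 1) * w ≤ (p - 1) / p * x ^ p + 1 / p * w ^ p := by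
  have hp0 : 0 < p := by linarith
  have h := Real.geom_mean_le_arith_mean2_weighted (w₁ := (p - 1) / p) (w₂ := 1 / p)
    (div_nonneg (by linarith) hp0.le) (by positivity) (Real.rpow_nonneg hx p) (Real.rpow_nonneg hw p)
    (by field_simp; ring)
  rwa [← Real.rpow_mul hx, ← Real.rpow_mul hw, mul_div_cancel₀ _ hp0.ne',
    mul_one_div_cancel hp0.ne', Real.rpow_one] at h

theorem young_lt {e k γ : ℝ} (h0 : 0 ≤ γ) (h1 : γ ≤ 1) (he : 0 ≤ e) (hk : 0 < k) :
    e ^ γ ≤ γ * (k ^ (2 * γ - 2) * e) + (1 - γ) * k ^ (2 * γ) := by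
  have h := Real.geom_mean_le_arith_mean2_weighted (w₁ := γ) (w₂ := 1 - γ) h0 (by linarith)
    (mul_nonneg (Real.rpow_nonneg hk.le (2 * γ - 2)) he) (Real.rpow_nonneg hk.le (2 * γ)) (by ring)
  rwa [Real.mul_rpow (Real.rpow_nonneg hk.le _) he, ← Real.rpow_mul hk.le, ← Real.rpow_mul hk.le,
    mul_right_comm, ← Real.rpow_add hk, show (2 * γ - 2) * γ + 2 * γ * (1 - γ) = 0 by ring,
    Real.rpow_zero, one_mul] at h

/-- A power is subconvex under substochastic weights. -/
theorem rpow_sum_le {κ : Type*} [Fintype κ] (c w : κ → ℝ) {p : ℝ} (hp : 1 ≤ p)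
    (hc : ∀ l, 0 ≤ c l) (hσ : ∑ l, c l ≤ 1) (hw : ∀ l, 0 ≤ w l) :
    (∑ l, c l * w l) ^ p ≤ ∑ l, c l * w l ^ p := by
  have hp0 : 0 < p := by linarith
  set x := ∑ l, c l * w l with hxdef
  have hx : 0 ≤ x := Finset.sum_nonneg fun l _ => mul_nonneg (hc l) (hw l)
  have hs : ∑ l, c l * (x ^ (p - 1) * w l) ≤
      ∑ l, c l * ((p - 1) / p * x ^ p + 1 / p * w l ^ p) :=
    Finset.sum_le_sum fun l _ => mul_le_mul_of_nonneg_left (young_rpow hp hx (hw l)) (hc l)
  have e1 : ∑ l, c l * (x ^ (p - 1) * w l) = x ^ p := by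
    simp_rw [mul_left_comm (c _)]
    rw [← Finset.mul_sum, ← hxdef]
    calc x ^ (p - 1) * x = x ^ (p - 1) * x ^ (1 : ℝ) := by rw [Real.rpow_one]
      _ = x ^ p := by rw [← Real.rpow_add_of_nonneg hx (by linarith) zero_le_one, sub_add_cancel]
  have e2 : ∑ l, c l * ((p - 1) / p * x ^ p + 1 / p * w l ^ p)
      = (∑ l, c l) * ((p - 1) / p * x ^ p) + 1 / p * ∑ l, c l * w l ^ p := by
    rw [Finset.sum_mul, Finset.mul_sum, ← Finset.sum_add_distrib]
    exact Finset.sum_congr rfl fun l _ => by ring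
  have h3 : (∑ l, c l) * ((p - 1) / p * x ^ p) ≤ (p - 1) / p * x ^ p :=
    mul_le_of_le_one_left (mul_nonneg (div_nonneg (by linarith) hp0.le) (Real.rpow_nonneg hx p)) hσ
  rw [e1, e2] at hs
  have h4 : 1 / p * x ^ p ≤ 1 / p * ∑ l, c l * w l ^ p := by
    have e3 : (p - 1) / p = 1 - 1 / p := by field_simp
    rw [e3] at hs h3
    linarith
  exact le_of_mul_le_mul_left h4 (by positivity)

theorem shift_rpow_le {x η δ p : ℝ} (hp : 1 ≤ p) (hx : 0 ≤ x) (hη : 0 ≤ η) (h0 : 0 < δ)
    (h1 : δ < 1) : (x + η) ^ p ≤ (1 - δ) ^ (1 - p) * x ^ p + δ ^ (1 - p) * η ^ p := by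
  have hd : 0 < 1 - δ := by linarith
  have h := rpow_sum_le ![1 - δ, δ] ![x / (1 - δ), η / δ] hp
    (fun l => by fin_cases l <;> simp <;> linarith) (by simp [Fin.sum_univ_two])
    (fun l => by fin_cases l <;> simp <;> positivity)
  simp only [Fin.sum_univ_two, Matrix.cons_val_zero, Matrix.cons_val_one] at h
  rw [mul_div_cancel₀ _ hd.ne', mul_div_cancel₀ _ h0.ne', Real.div_rpow hx hd.le,
    Real.div_rpow hη h0.le] at h
  refine h.trans_eq ?_
  rw [Real.rpow_sub hd, Real.rpow_sub h0, Real.rpow_one, Real.rpow_one]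
  ring

variable {n m N : ℕ}

/-- The diagonal of a functional calculus. -/
theorem cfc_diag {A : Mat n} (hA : A.IsHermitian) (f : ℝ → ℝ) (i : Fin n) :
    (cfc f A i i).re =
      ∑ j, Complex.normSq ((hA.eigenvectorUnitary : Mat n) i j) * f (hA.eigenvalues j) := by
  rw [hA.cfc_eq, Matrix.IsHermitian.cfc, Unitary.conjStarAlgAut_apply, Matrix.mul_apply,
    Complex.re_sum]
  refine Finset.sum_congr rfl fun j _ => ?_
  rw [Matrix.mul_diagonal, Matrix.star_apply, RCLike.star_def]
  simp only [Function.comp, Complex.coe_algebraMap, Complex.mul_re, Complex.mul_im,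
    Complex.conj_re, Complex.conj_im, Complex.ofReal_re, Complex.ofReal_im, Complex.normSq_apply]
  ring

theorem normSq_eigenvector_row {A : Mat n} (hA : A.IsHermitian) (i : Fin n) :
    ∑ j, Complex.normSq ((hA.eigenvectorUnitary : Mat n) i j) = 1 :=
  sum_normSq_row (Unitary.coe_mul_star_self _) i

theorem posSemidef_cfc {A : Mat n} (hA : A.IsHermitian) {f : ℝ → ℝ}
    (hf : ∀ i, 0 ≤ f (hA.eigenvalues i)) : (cfc f A).PosSemidef := by
  rw [hA.cfc_eq, Matrix.IsHermitian.cfc, Unitary.conjStarAlgAut_apply]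
  exact (PosSemidef.diagonal fun i => by simpa using hf i).mul_mul_conjTranspose_same _

theorem re_trace_mul_nonneg {A B : Mat n} (hA : A.PosSemidef) (hB : B.PosSemidef) :
    0 ≤ (A * B).trace.re := by
  rw [trace_mul_eq_sum_overlap hA.1 hB.1]
  exact Finset.sum_nonneg fun i _ => Finset.sum_nonneg fun j _ =>
    mul_nonneg (mul_nonneg (hA.eigenvalues_nonneg i) (hB.eigenvalues_nonneg j))
      (Complex.normSq_nonneg _)

theorem norm_one_le (n : ℕ) : ‖(1 : Mat n)‖ ≤ 1 := by
  rw [← Matrix.diagonal_one, Matrix.l2_opNorm_diagonal]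
  exact (pi_norm_le_iff_of_nonneg zero_le_one).2 fun i => by simp

theorem norm_unitary_le {U : Mat n} (hU : star U * U = 1) : ‖U‖ ≤ 1 := by
  have h := Matrix.l2_opNorm_conjTranspose_mul_self U
  rw [← Matrix.star_eq_conjTranspose, hU] at h
  nlinarith [norm_one_le n, norm_nonneg U]

/-- A contraction has columns of norm at most one. -/
theorem sum_normSq_col_le (C : Matrix (Fin n) (Fin m) ℂ) (h : ‖C‖ ≤ 1) (l : Fin m) :
    ∑ j, Complex.normSq (C j l) ≤ 1 := by
  have h1 := Matrix.l2_opNorm_mulVec C (EuclideanSpace.single l (1 : ℂ))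
  rw [PiLp.norm_single, norm_one, mul_one] at h1
  have h2 := pow_le_pow_left₀ (norm_nonneg _) (h1.trans h) 2
  rw [EuclideanSpace.norm_sq_eq, one_pow] at h2
  simpa [Complex.sq_norm, Matrix.mulVec_single] using h2

/-- **Compressed and shifted potentials.** -/
theorem trace_rpow_shift_le {W : Mat m} (hW : W.PosSemidef) (A : Matrix (Fin N) (Fin m) ℂ)
    (hA : ‖A‖ ≤ 1) {p η δ : ℝ} (hp : 1 ≤ p) (hη : 0 ≤ η) (h0 : 0 < δ) (h1 : δ < 1) :
    (cfc (fun x : ℝ => x ^ p) (A * W * Aᴴ + (η : ℂ) • 1)).trace.re ≤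
      (1 - δ) ^ (1 - p) * (cfc (fun x : ℝ => x ^ p) W).trace.re + δ ^ (1 - p) * η ^ p * N := by
  set X : Mat N := A * W * Aᴴ with hXdef
  have hX : X.PosSemidef := hW.mul_mul_conjTranspose_same A
  have hsa : IsSelfAdjoint X := hX.1
  have eshift : X + (η : ℂ) • 1 = cfc (fun x : ℝ => x + η) X := by
    rw [cfc_add_const η (fun x : ℝ => x) X, cfc_id' ℝ X, Algebra.algebraMap_eq_smul_one,
      Complex.coe_smul]
  rw [eshift, ← cfc_comp' (fun x : ℝ => x ^ p) (fun x : ℝ => x + η) X
    ((Set.Finite.image _ (Matrix.finite_real_spectrum (A := X))).continuousOn _),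
    trace_cfc_re hX.1, trace_cfc_re hW.1]
  set V : Mat N := (hX.1.eigenvectorUnitary : Mat N) with hV
  set U : Mat m := (hW.1.eigenvectorUnitary : Mat m) with hU
  set C : Matrix (Fin N) (Fin m) ℂ := star V * A * U with hC
  have eX := hX.1.spectral_theorem
  have eW := hW.1.spectral_theorem
  rw [Unitary.conjStarAlgAut_apply, ← hV] at eX
  rw [Unitary.conjStarAlgAut_apply, ← hU] at eW
  have hdiag : C * diagonal (fun l => (hW.1.eigenvalues l : ℂ)) * Cᴴ
      = diagonal (fun j => (hX.1.eigenvalues j : ℂ)) := by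
    have hVV : star V * V = 1 := Unitary.coe_star_mul_self _
    calc C * diagonal (fun l => (hW.1.eigenvalues l : ℂ)) * Cᴴ
        = star V * (A * (U * diagonal (fun l => (hW.1.eigenvalues l : ℂ)) * star U) * Aᴴ) * V := by
          simp only [hC, Matrix.conjTranspose_mul, Matrix.star_eq_conjTranspose,
            Matrix.conjTranspose_conjTranspose, Matrix.mul_assoc]
      _ = star V * X * V := by rw [hXdef]; congr 4; exact eW.symm
      _ = star V * (V * diagonal (fun j => (hX.1.eigenvalues j : ℂ)) * star V) * V := by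
          congr 2
      _ = (star V * V) * diagonal (fun j => (hX.1.eigenvalues j : ℂ)) * (star V * V) := by
          simp only [Matrix.mul_assoc]
      _ = _ := by rw [hVV, Matrix.one_mul, Matrix.mul_one]
  have hC1 : ‖C‖ ≤ 1 := by
    refine (Matrix.l2_opNorm_mul _ _).trans ?_
    refine mul_le_one₀ ((Matrix.l2_opNorm_mul _ _).trans (mul_le_one₀ ?_ (norm_nonneg _) hA))
      (norm_nonneg _) (norm_unitary_le (Unitary.coe_star_mul_self _))
    rw [Matrix.star_eq_conjTranspose, Matrix.l2_opNorm_conjTranspose]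
    exact norm_unitary_le (Unitary.coe_star_mul_self _)
  have hx : ∀ j, hX.1.eigenvalues j = ∑ l, Complex.normSq (C j l) * hW.1.eigenvalues l := by
    intro j
    have h := congrArg Complex.re (congrFun (congrFun hdiag j) j)
    rw [Matrix.diagonal_apply_eq, Complex.ofReal_re, Matrix.mul_apply, Complex.re_sum] at h
    rw [← h]
    refine Finset.sum_congr rfl fun l _ => ?_
    rw [Matrix.mul_diagonal, Matrix.conjTranspose_apply]
    simp only [Complex.star_def, Complex.mul_re, Complex.mul_im, Complex.conj_re, Complex.conj_im, Complex.ofReal_re,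
      Complex.ofReal_im, Complex.normSq_apply]
    ring
  have hrow : ∀ j, ∑ l, Complex.normSq (C j l) ≤ 1 := fun j => by
    simpa [Complex.normSq_conj] using
      sum_normSq_col_le Cᴴ (by rwa [Matrix.l2_opNorm_conjTranspose]) j
  have hd : 0 ≤ (1 - δ) ^ (1 - p) := Real.rpow_nonneg (by linarith) _
  calc ∑ j, (hX.1.eigenvalues j + η) ^ p
      ≤ ∑ j, ((1 - δ) ^ (1 - p) * (∑ l, Complex.normSq (C j l) * hW.1.eigenvalues l ^ p)
          + δ ^ (1 - p) * η ^ p) := by
        refine Finset.sum_le_sum fun j _ => ?_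
        refine (shift_rpow_le hp (hX.eigenvalues_nonneg j) hη h0 h1).trans (add_le_add ?_ le_rfl)
        rw [hx j]
        exact mul_le_mul_of_nonneg_left
          (rpow_sum_le _ _ hp (fun l => Complex.normSq_nonneg _) (hrow j) hW.eigenvalues_nonneg) hd
    _ ≤ _ := by
        rw [Finset.sum_add_distrib, ← Finset.mul_sum, Finset.sum_comm, Finset.sum_const,
          Finset.card_univ, Fintype.card_fin, nsmul_eq_mul, mul_comm (N : ℝ)]
        refine add_le_add (mul_le_mul_of_nonneg_left (Finset.sum_le_sum fun l _ => ?_) hd) le_rfl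
        rw [← Finset.sum_mul]
        exact mul_le_of_le_one_left (Real.rpow_nonneg (hW.eigenvalues_nonneg l) _)
          (sum_normSq_col_le C hC1 l)

end Vale.Agent.P371.Gamma.Trial
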